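import Vale.Agent.P354XS.Defs
import Vale.Agent.P354I.Core2

/-!
Phase 3: the space of asymptotically flat data with norms in the coordinates y, and the exact
statements of block E14.
-/

open scoped ContDiff
open Set Filter Topology

noncomputable section

namespace Vale.Agent.P354XS

open Vale.Agent.P354n (R4 IsConn)
open Vale.Agent.P354I (X Dat pd Good Con)
open Vale.Agent.P354J (PDy)
open Vale.Agent.P354T (DSm)

/-- Weighted suprema of the derivatives of order at most m. -/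
def wq (w : X → ℝ) (m : ℕ) (F : X → ℝ) : ENNReal :=
  ∑ j ∈ Finset.range (m + 1), ⨆ y : X, ⨆ _ : y ≠ 0,
    ENNReal.ofReal (w y * ‖y‖ ^ (2 + j) * ‖iteratedFDeriv ℝ j F y‖)

/-- The weight 1 / r. -/
def wi (y : X) : ℝ := (‖y‖ + ‖y‖⁻¹)⁻¹

/-- The seminorms in the coordinates y. -/
def qm (m : ℕ) (d d' : Dat) : ENNReal :=
  ∑ i, ∑ j, (wq wi m (fun y => d.h y i j - d'.h y i j) + wq 1 m (fun y => d.K y i j - d'.K y i j))

/-- The space of data and its topology. -/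
def DA (M a : ℝ) : Type := {d : Dat // PDy d ∧ Con d ∧ ∀ m, qm m d (ds M a) < ⊤}

instance (M a : ℝ) : TopologicalSpace (DA M a) :=
  TopologicalSpace.generateFrom
    {S | ∃ (d : DA M a) (m : ℕ) (ε : ENNReal), S = {d' | qm m d'.1 d.1 < ε}}

/-- The ball about the Kerr data. -/
def BA (M a : ℝ) (m : ℕ) (η : ℝ) : Set (DA M a) := {d | qm m d.1 (ds M a) < ENNReal.ofReal η}

/-- Q1 in the coordinates y. -/
def Q1' : Prop :=
  ∀ M a : ℝ, a ≠ 0 → |a| < M → ∃ m, ∃ η > 0, IsMeagre {d : BA M a m η | ¬ Good d.1.1}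

/-- EQV: the two families of seminorms are equivalent. -/
def EQV : Prop :=
  ∀ (M a : ℝ) (ρ : X → ℝ) (m : ℕ), |a| < M → IsWt M a ρ → ∃ C : ℝ, 0 < C ∧ ∀ d d', DSm d → DSm d' →
    pn (ds M a) ρ m d d' ≤ ENNReal.ofReal C * qm m d d' ∧
      qm m d d' ≤ ENNReal.ofReal C * pn (ds M a) ρ m d d'

/-- KD: the Kerr data are smooth, solve the constraints, and are asymptotically flat at both
ends (inversion y ↦ c y / |y|^2 with a reflection exchanges the ends). -/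
def KD : Prop := ∀ M a : ℝ, |a| < M → PDy (ds M a) ∧ Con (ds M a)

/-- KF: the Kerr data are asymptotically flat. -/
def KF : Prop :=
  ∀ M a : ℝ, |a| < M → ∀ m : ℕ, ∃ C, ∀ y : X, 1 ≤ ‖y‖ → ∀ i j,
    ‖y‖ ^ (1 + m) * ‖iteratedFDeriv ℝ m (fun z => (ds M a).h z i j - (1 : P354J.M3) i j) y‖ ≤ C ∧
      ‖y‖ ^ (3 + m) * ‖iteratedFDeriv ℝ m (fun z => (ds M a).K z i j) y‖ ≤ C

/-- GC: data induced by a vacuum metric solve the constraints (Gauss and Codazzi). -/
def GC : Prop :=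
  ∀ (g : R4 → R4 → R4 → ℝ) (G : R4 → R4 → R4 → R4) (D : Set R4) (O : Set X) (J n : X → R4)
    (d : Dat), IsOpen D → IsOpen O → P354R.Met g D →
    (∀ p ∈ D, IsConn g G p ∧ P354C.RicZero g G p) → ContDiffOn ℝ ∞ J O → MapsTo J O D →
    (∀ y ∈ O, (d.h y).PosDef ∧ g (J y) (n y) (n y) = -1 ∧ ∀ i k,
      g (J y) (pd i J y) (n y) = 0 ∧ g (J y) (pd i J y) (pd k J y) = d.h y i k ∧
      -g (J y) (n y) (pd i (pd k J) y + G (J y) (pd i J y) (pd k J y)) = d.K y i k) →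
    ContDiffOn ℝ ∞ n O →
    ∀ y ∈ O, d.scal y + d.trK y ^ 2 - d.sqK y = 0 ∧ ∀ j, d.divK j y - pd j d.trK y = 0

end Vale.Agent.P354XS
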