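import Vale.Agent.P354I.Defs

open scoped ContDiff
open MeasureTheory Set Filter Topology

namespace Vale.Agent.P354XS

open Vale.Agent.P354I (X Dat ee pd dT dP rnd Sg Good)

/-- The slice t = 0 of the two-ended Kerr spacetime is X without the origin,
y = |y| (sin θ cos φ, sin θ sin φ, cos θ). The Boyer-Lindquist radius is rad, and sd is the signed
square root of r^2 - 2 M r + a^2, so that dr = sd dT with T = log |y|. The bifurcation sphere is
sd = 0, the two ends are |y| → ∞ and y → 0. -/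
noncomputable def rad (M a : ℝ) (y : X) : ℝ := ‖y‖ + M + (M ^ 2 - a ^ 2) / (4 * ‖y‖)
noncomputable def sd (M a : ℝ) (y : X) : ℝ := ‖y‖ - (M ^ 2 - a ^ 2) / (4 * ‖y‖)

/-- The function z = cos θ, its differential, and the rotation field d/dφ. -/
noncomputable def zc (y : X) : ℝ := y 2 / ‖y‖
noncomputable def dZ (y v : X) : ℝ := v 2 / ‖y‖ - zc y * dT y v
noncomputable def rot (y : X) : X := !₂[-y 1, y 0, 0]

/-- The function (r^2 + a^2)^2 - a^2 (r^2 - 2 M r + a^2) sin^2 θ and the angular velocity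
om = - g(d/dt, d/dφ) / g(d/dφ, d/dφ), as functions of r and z. -/
noncomputable def AA (M a r z : ℝ) : ℝ :=
  (r ^ 2 + a ^ 2) ^ 2 - a ^ 2 * (r ^ 2 - 2 * M * r + a ^ 2) * (1 - z ^ 2)
noncomputable def om (M a r z : ℝ) : ℝ := 2 * M * a * r / AA M a r z

/-- The Kerr metric on vectors tangent to t = 0:
Sg (dr^2 / (r^2 - 2 M r + a^2) + dθ^2 + sin^2 θ dφ^2) + a^2 (1 + 2 M r / Sg) sin^4 θ dφ^2. -/
noncomputable def hs (M a : ℝ) (y v w : X) : ℝ :=
  Sg a (rad M a y) y * (dT y v * dT y w + rnd y v w) +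
    a ^ 2 * (1 + 2 * M * rad M a y / Sg a (rad M a y) y) * (dP y v * dP y w)

/-- The form d om / N. The future unit normal is (d/dt + om d/dφ) / N with the signed lapse
N = sd sqrt (Sg / AA), and d om = (d om / dr) sd dT + (d om / dz) dz. The quotient (d om / dz) / sd
tends to its value 0 on the bifurcation sphere. -/
noncomputable def et (M a : ℝ) (y v : X) : ℝ :=
  √(AA M a (rad M a y) (zc y) / Sg a (rad M a y) y) *
    (deriv (fun r => om M a r (zc y)) (rad M a y) * dT y v +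
      deriv (om M a (rad M a y)) (zc y) / sd M a y * dZ y v)

/-- The data induced by Kerr on t = 0; K is half the Lie derivative of the metric along the
future unit normal. -/
noncomputable def ds (M a : ℝ) : Dat where
  h y := Matrix.of fun i j => hs M a y (ee i) (ee j)
  K y := Matrix.of fun i j =>
    (et M a y (ee i) * hs M a y (rot y) (ee j) + et M a y (ee j) * hs M a y (rot y) (ee i)) / 2

/-- The components of a covariant tensor field of rank n. -/
abbrev Tn (n : ℕ) : Type := X → (Fin n → Fin 3) → ℝ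

/-- The covariant derivative for the metric of k, its iterates on 2-tensors, and the norm. -/
noncomputable def cov (k : Dat) {n : ℕ} (T : Tn n) : Tn (n + 1) := fun y I =>
  pd (I 0) (fun z => T z (Fin.tail I)) y -
    ∑ p, ∑ l, k.chr l (I 0) (Fin.tail I p) y * T y (Function.update (Fin.tail I) p l)
noncomputable def nab (k : Dat) (u : X → Matrix (Fin 3) (Fin 3) ℝ) : (j : ℕ) → Tn (2 + j)
  | 0 => fun y I => u y (I 0) (I 1)
  | j + 1 => cov k (nab k u j)
noncomputable def nrm (k : Dat) {n : ℕ} (T : Tn n) (y : X) : ℝ :=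
  √(∑ I, ∑ J, (∏ p, (k.h y)⁻¹ (I p) (J p)) * T y I * T y J)

/-- The seminorm p_m of the difference of two data, for the metric of k and the weight ρ. -/
noncomputable def pn (k : Dat) (ρ : X → ℝ) (m : ℕ) (d d' : Dat) : ENNReal :=
  ∑ j ∈ Finset.range (m + 1),
    ((⨆ y : X, ⨆ _ : y ≠ 0, ENNReal.ofReal (ρ y ^ (1 + j) * nrm k (nab k (d.h - d'.h) j) y)) +
      ⨆ y : X, ⨆ _ : y ≠ 0, ENNReal.ofReal (ρ y ^ (2 + j) * nrm k (nab k (d.K - d'.K) j) y))

/-- The weight is smooth, at least 1, and equal to the radius outside a compact set. -/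
def IsWt (M a : ℝ) (ρ : X → ℝ) : Prop :=
  ContDiffOn ℝ ∞ ρ {0}ᶜ ∧ (∀ y ≠ 0, 1 ≤ ρ y) ∧
    ∃ C, IsCompact C ∧ C ⊆ {0}ᶜ ∧ ∀ y ≠ 0, y ∉ C → ρ y = rad M a y

/-- Smooth data with Riemannian h and symmetric K, all p_m of the difference to the Kerr data
finite (so h is complete), which solve the vacuum constraint equations. -/
structure IsAF (M a : ℝ) (ρ : X → ℝ) (d : Dat) : Prop where
  smooth : ∀ i j, ContDiffOn ℝ ∞ (fun y => d.h y i j) {0}ᶜ ∧
    ContDiffOn ℝ ∞ (fun y => d.K y i j) {0}ᶜ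
  pos : ∀ y ≠ 0, (d.h y).PosDef ∧ (d.K y).IsSymm
  finite : ∀ m, pn (ds M a) ρ m d (ds M a) < ⊤
  hamilton : ∀ y ≠ 0, d.scal y + d.trK y ^ 2 - d.sqK y = 0
  momentum : ∀ y ≠ 0, ∀ j, d.divK j y - pd j d.trK y = 0

/-- The space of data. -/
def DD (M a : ℝ) (ρ : X → ℝ) : Type := {d : Dat // IsAF M a ρ d}

/-- The topology of all p_m of differences. -/
instance (M a : ℝ) (ρ : X → ℝ) : TopologicalSpace (DD M a ρ) :=
  TopologicalSpace.generateFrom
    {S | ∃ (d : DD M a ρ) (m : ℕ) (ε : ENNReal), S = {d' | pn (ds M a) ρ m d'.1 d.1 < ε}}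

/-- The statement of Q1. -/
def Q1 : Prop :=
  ∀ M a : ℝ, a ≠ 0 → |a| < M → (∃ ρ, IsWt M a ρ) ∧ ∀ ρ, IsWt M a ρ →
    ∃ U : Set (DD M a ρ), IsOpen U ∧ (∃ d ∈ U, d.1 = ds M a) ∧ IsMeagre {d : U | ¬ Good d.1.1}

end Vale.Agent.P354XS
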